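import Vale.Agent.P251.G.BrDeg

/-!
Existence of a zero from a boundary condition (no retraction theorem), in a finite dimensional
real normed space.
-/

namespace Vale.Agent.P264Z

open Set Metric Bornology Vale.Agent.P251.G

/-- If `f` is continuous on the closure of a bounded open set `W` containing `0` and the segment
from `x` to `f x` avoids `0` for all `x` in the frontier of `W`, then `f` has a zero in `W`. -/
theorem exists_zero_of_frontier {E : Type*} [NormedAddCommGroup E] [NormedSpace ℝ E]
    [FiniteDimensional ℝ E] {W : Set E} (hW : IsOpen W) (hWb : IsBounded W) (h0 : (0 : E) ∈ W)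
    {f : E → E} (hf : ContinuousOn f (closure W))
    (hb : ∀ x ∈ frontier W, ∀ t ∈ Icc (0 : ℝ) 1, (1 - t) • x + t • f x ≠ 0) :
    ∃ x ∈ W, f x = 0 := by
  set n := Module.finrank ℝ E
  let e : E ≃L[ℝ] (Fin n → ℝ) := (Module.finBasis ℝ E).equivFun.toContinuousLinearEquiv
  let eh : E ≃ₜ (Fin n → ℝ) := e.toHomeomorph
  have hee : ∀ x, eh x = e x := fun _ => rfl
  set W' : Set (Fin n → ℝ) := eh '' W with hW'
  have hW'o : IsOpen W' := eh.isOpenMap W hW
  have hW'b : IsBounded W' := (e : E →L[ℝ] (Fin n → ℝ)).lipschitz.isBounded_image hWb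
  have hcl : closure W' = eh '' closure W := (eh.image_closure W).symm
  have hfr : frontier W' = eh '' frontier W := (eh.image_frontier W).symm
  set g : (Fin n → ℝ) → (Fin n → ℝ) := fun y => e (f (e.symm y)) with hg
  have hgc : ContinuousOn g (closure W') := by
    refine e.continuous.comp_continuousOn (hf.comp e.symm.continuous.continuousOn ?_)
    intro y hy
    rw [hcl] at hy
    obtain ⟨x, hx, rfl⟩ := hy
    rw [hee, e.symm_apply_apply]
    exact hx
  have h0' : (0 : Fin n → ℝ) ∈ W' := ⟨0, h0, by rw [hee, map_zero]⟩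
  have hd : degR (fun x : Fin n → ℝ => x - 0) W' = degR g W' := by
    refine degR_homotopy hW'o hW'b (by fun_prop) hgc fun y hy t ht => ?_
    rw [hfr] at hy
    obtain ⟨x, hx, rfl⟩ := hy
    intro h
    apply hb x hx t ht
    apply e.injective
    rw [map_zero, ← h, hee, hg]
    simp
  rw [degR_id_sub hW'b hW'o h0'] at hd
  by_contra hcon
  push Not at hcon
  have hz : degR g W' = 0 := by
    refine degR_empty_zero hW'b hW'o hgc fun y hy h => ?_
    rw [hcl] at hy
    obtain ⟨x, hx, rfl⟩ := hy
    have hfx : f x = 0 := by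
      apply e.injective
      rw [map_zero, ← h, hee, hg]
      simp
    by_cases hxW : x ∈ W
    · exact hcon x hxW hfx
    · have hxf : x ∈ frontier W := by
        rw [hW.frontier_eq]; exact ⟨hx, hxW⟩
      exact hb x hxf 1 ⟨zero_le_one, le_rfl⟩ (by simp [hfx])
  rw [hz] at hd
  exact one_ne_zero hd

/-- ball version: `f x = x` on the sphere -/
theorem exists_zero_of_sphere {E : Type*} [NormedAddCommGroup E] [NormedSpace ℝ E]
    [FiniteDimensional ℝ E] {r : ℝ} (hr : 0 < r) {f : E → E}
    (hf : ContinuousOn f (closedBall 0 r))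
    (hb : ∀ x : E, ‖x‖ = r → ∀ t ∈ Icc (0 : ℝ) 1, (1 - t) • x + t • f x ≠ 0) :
    ∃ x : E, ‖x‖ < r ∧ f x = 0 := by
  obtain ⟨x, hx, h⟩ := exists_zero_of_frontier (W := ball (0 : E) r) isOpen_ball isBounded_ball
    (mem_ball_self hr) (f := f) (hf.mono closure_ball_subset_closedBall) (fun x hx => by
      have := frontier_ball_subset_sphere hx
      exact hb x (by simpa using this))
  exact ⟨x, by simpa using hx, h⟩

end Vale.Agent.P264Z
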