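import Vale.Agent.P264Z.Iface

/-!
# P264: the fixed-time inequalities, as statements
-/

open scoped ContDiff
open Set

noncomputable section

namespace Vale.Agent.P264Z

/-- the weight `v = 1 - x/b` -/
def vw (b x : ℝ) : ℝ := 1 - x / b

/-- the commutator of `Lop 10` with the cutoff -/
def com (B : ℝ) (m : ℝ → ℝ) (x : ℝ) : ℝ :=
  Lop 10 (fun z => cut B z * m z) x - cut B x * Lop 10 m x

/-- coercivity -/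
def F2 : Prop := ∀ (p : ℕ) (b : ℝ) (W : ℝ → ℝ), (p = 2 ∨ p = 3) → 0 < b → ContDiff ℝ ∞ W →
  W b = 0 → deriv W b = 0 → 1 / 4 * Dn p b W ≤ Pr p b W W

/-- boundedness of the pairing -/
def F3 : Prop := ∃ C : ℝ, 0 < C ∧ ∀ (p : ℕ) (b η : ℝ) (W G : ℝ → ℝ), (p = 2 ∨ p = 3) → 0 < b →
  0 < η → ContDiff ℝ ∞ W → ContDiff ℝ ∞ G → W b = 0 → deriv W b = 0 →
  |Pr p b W G| ≤ η * Dn p b W + C / η * Dn p b G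

/-- Hardy inequality at the degenerate end -/
def F4 : Prop := ∀ M : ℝ, 1 ≤ M → ∃ C : ℝ, 0 < C ∧ ∀ (p : ℕ) (b : ℝ) (y Q : ℝ → ℝ),
  (p = 2 ∨ p = 3) → 0 < b → ContDiff ℝ ∞ y → ContDiff ℝ ∞ Q →
  (∀ x ∈ Icc 0 b, vw b x / M ≤ y x ∧ y x ≤ M * vw b x ∧ x * |deriv y x| ≤ M ∧
    x ^ 2 * |deriv (deriv y) x| ≤ M) →
  Dh p b Q ≤ C * Dn p b (fun x => y x ^ 2 * Q x)

/-- sup bounds from the critical energy -/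
def F5 : Prop := ∃ C : ℝ, 0 < C ∧ ∀ (b : ℝ) (m : ℝ → ℝ), 0 < b → ContDiff ℝ ∞ m → m b = 0 →
  deriv m b = 0 → ∀ x ∈ Icc 0 b,
    (x * m x) ^ 2 ≤ C * vw b x ^ 2 * En 3 b (vw b) m ∧
    (x ^ 2 * deriv m x) ^ 2 ≤ C * En 3 b (vw b) m ∧
    (x ^ 3 * deriv (deriv m) x) ^ 2 ≤ C * En 3 b (vw b) m ∧
    (x ≤ b / 2 → (x ^ 4 * deriv (deriv (deriv m)) x) ^ 2 ≤ C * En 3 b (vw b) m)

/-- `Dn 2` on `[0,X]` from a sup bound of `x · Mop m` -/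
def F5b : Prop := ∃ C : ℝ, 0 < C ∧ ∀ (X ζ : ℝ) (m : ℝ → ℝ), 0 < X → ContDiff ℝ ∞ m →
  (∀ x ∈ Icc 0 X, (x * Mop 10 m x) ^ 2 ≤ ζ) → Dn 2 X m ≤ C * X * ζ

/-- the subcritical energy controls `Dn 0` -/
def F6 : Prop := ∃ C : ℝ, 0 < C ∧ ∀ (b : ℝ) (m : ℝ → ℝ), 0 < b → ContDiff ℝ ∞ m → m b = 0 →
  deriv m b = 0 → Dn 0 b m ≤ C * En 2 b (vw b) m

/-- pointwise product bound -/
def F7a : Prop := ∀ (a m : ℝ → ℝ) (x A : ℝ), ContDiff ℝ ∞ a → ContDiff ℝ ∞ m → 0 ≤ x →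
  |a x| ≤ A → x * |deriv a x| ≤ A → x ^ 2 * |deriv (deriv a) x| ≤ A →
  dn (fun z => a z * m z) x ≤ 16 * A ^ 2 * dn m x

/-- pointwise product bound with the degenerate weight -/
def F7b : Prop := ∀ (G Q : ℝ → ℝ) (b x d : ℝ), ContDiff ℝ ∞ G → ContDiff ℝ ∞ Q → 0 ≤ x → x ≤ b →
  0 < b → |G x| ≤ d * vw b x ^ 2 → x * |deriv G x| ≤ d * vw b x →
  x ^ 2 * |deriv (deriv G) x| ≤ d → dn (fun z => G z * Q z) x ≤ 16 * d ^ 2 * dh b Q x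

/-- Hölder continuity of `x · Mop m` -/
def F8 : Prop := ∃ C : ℝ, 0 < C ∧ ∀ (b : ℝ) (m : ℝ → ℝ), 0 < b → ContDiff ℝ ∞ m → m b = 0 →
  deriv m b = 0 → ∀ x ∈ Icc 0 (b / 2), ∀ z ∈ Icc 0 (b / 2),
    (x * Mop 10 m x - z * Mop 10 m z) ^ 2 ≤ C * |x - z| * En 2 b (vw b) m

/-- cell integrals -/
def F9 : Prop := ∃ C : ℝ, 0 < C ∧ ∀ (b c d : ℝ) (G : ℝ → ℝ), 0 ≤ c → c ≤ d → d ≤ b →
  ContDiff ℝ ∞ G → (∫ x in c..d, x * Mop 10 G x) ^ 2 ≤ C * (d - c) * Dn 2 b G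

/-- the cutoff is scale invariantly bounded -/
def F10 : Prop := ∃ C : ℝ, 1 ≤ C ∧ ∀ (B x : ℝ) (j : ℕ), 0 < B → 0 ≤ x → j ≤ 6 →
  x ^ j * |iteratedDeriv j (cut B) x| ≤ C

/-- the commutator with the cutoff, in integrated form -/
def F11 : Prop := ∃ C : ℝ, 0 < C ∧ ∀ (b B : ℝ) (m : ℝ → ℝ), 0 < B → 4 * B ≤ b → ContDiff ℝ ∞ m →
  m b = 0 → deriv m b = 0 →
    (∫ x in (0 : ℝ)..b, x ^ 4 * com B m x ^ 2) ≤ C / B * En 3 b (vw b) m ∧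
    Dn 2 b (com B m) ≤ C / B ^ 3 * En 3 b (vw b) m + C / B * Dh 3 b (Lop 10 m)

end Vale.Agent.P264Z
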