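import Mathlib.Analysis.Calculus.IteratedDeriv.Defs
import Mathlib.Analysis.Calculus.ContDiff.Basic
import Mathlib.Analysis.Calculus.Deriv.Basic
import Mathlib.MeasureTheory.Integral.IntervalIntegral.Basic
import Mathlib.Analysis.SpecialFunctions.SmoothTransition

/-!
# P264: interfaces between the blocks

A `U(n)`-invariant Kähler metric on projective space with moment interval `[0,b]` has the momentum
profile `φ(x) = x - x² m(x)`; its scalar curvature is `Mop n m`, and the Calabi flow is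
`∂_t m = -(1 - x m)² (Mop n m)''`.
-/

open scoped ContDiff
open Set

noncomputable section

namespace Vale.Agent.P264Z

/-- The scalar curvature of the profile `x - x² m(x)`: `x^(1-n) (x^(n+1) m)''`. -/
def Mop (n : ℕ) (m : ℝ → ℝ) (x : ℝ) : ℝ :=
  x ^ 2 * deriv (deriv m) x + 2 * ((n : ℝ) + 1) * x * deriv m x + (n : ℝ) * ((n : ℝ) + 1) * m x

/-- The fourth order operator `m ↦ (Mop n m)''`. -/
def Lop (n : ℕ) (m : ℝ → ℝ) (x : ℝ) : ℝ := deriv (deriv (Mop n m)) x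

/-- Admissible profile on `[0,b]`: `φ = x - x² m` is positive on `(0,b)`, `φ(b) = 0`,
`φ'(b) = -1`. -/
structure Adm (b : ℝ) (m : ℝ → ℝ) : Prop where
  pos : ∀ x, 0 ≤ x → x < b → x * m x < 1
  val : m b = 1 / b
  der : deriv m b = 0

/-- A solution of the reduced Calabi flow on `[0,T] × [0,b]`, smoothly extended to the plane. -/
structure Sol (n : ℕ) (b T : ℝ) (m : ℝ → ℝ → ℝ) : Prop where
  smooth : ContDiff ℝ ∞ (fun p : ℝ × ℝ => m p.1 p.2)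
  adm : ∀ t ∈ Icc 0 T, Adm b (m t)
  pde : ∀ t ∈ Ioo 0 T, ∀ x ∈ Ioo 0 b,
    deriv (fun s => m s x) t = -(1 - x * m t x) ^ 2 * Lop n (m t) x

/-- The one-dimensional theorem: some smooth admissible profile has no solution up to time `1`. -/
def NoGlobal (n : ℕ) : Prop :=
  ∃ (b : ℝ) (m₀ : ℝ → ℝ), 0 < b ∧ ContDiff ℝ ∞ m₀ ∧ Adm b m₀ ∧
    ¬ ∃ m : ℝ → ℝ → ℝ, Sol n b 1 m ∧ ∀ x ∈ Icc 0 b, m 0 x = m₀ x

/-- A self-similar shrinker `m(t,x) = (1-t)^(-1/2) σ(x (1-t)^(-1/2))`, asymptotic to a cone. -/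
structure Shrinker (n : ℕ) (σ : ℝ → ℝ) : Prop where
  smooth : ContDiff ℝ ∞ σ
  pos : ∃ c : ℝ, 0 < c ∧ ∀ x, 0 ≤ x → c ≤ 1 - x * σ x
  ode : ∀ x, 0 ≤ x → σ x + x * deriv σ x = -2 * (1 - x * σ x) ^ 2 * Lop n σ x
  bound : ∀ j ≤ 6, ∃ C : ℝ, ∀ x, 0 ≤ x → x ^ (j + 1) * |iteratedDeriv j σ x| ≤ C
  ne : ∃ x, 0 < x ∧ σ x ≠ 0

/-- The abstract shooting theorem (finite codimension stability without existence theory). -/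
def Shooting : Prop :=
  ∀ (P T : Type) [AddCommGroup P] [Module ℝ P] [AddCommGroup T] [Module ℝ T]
    (e : P →ₗ[ℝ] P →ₗ[ℝ] ℝ) (g : T →ₗ[ℝ] T →ₗ[ℝ] ℝ) (inn out : T →ₗ[ℝ] P)
    (N : ℕ) (l : Fin N → P →ₗ[ℝ] ℝ) (θ C : ℝ),
    (∀ h k, e h k = e k h) → (∀ h, 0 ≤ e h h) → (∀ x y, g x y = g y x) → (∀ x, 0 ≤ g x x) →
    0 < θ → θ < 1 → 0 ≤ C → (∀ i h, (l i h) ^ 2 ≤ C * e h h) →
    (∀ x, e (out x) (out x) ≤ θ ^ 2 * e (inn x) (inn x) + C * g x x + C * ∑ i, (l i (inn x)) ^ 2) →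
    ∃ (ϑ : ℝ) (r : ℕ) (v : Fin r → P) (C₀ δ : ℝ), θ < ϑ ∧ ϑ < 1 ∧ 0 < C₀ ∧ 0 < δ ∧
      ∀ (ε : ℝ) (x : ℕ → (Fin r → ℝ) → T), 0 < ε →
        (∀ a, ‖a‖ ≤ 1 → e (inn (x 0 a) - ε • ∑ i, a i • v i) (inn (x 0 a) - ε • ∑ i, a i • v i) = 0) →
        (∀ k a, ‖a‖ ≤ 1 →
          e (inn (x (k + 1) a) - out (x k a)) (inn (x (k + 1) a) - out (x k a)) = 0) →
        (∀ k a₀, ‖a₀‖ ≤ 1 → ∀ η : ℝ, 0 < η → ∃ ρ : ℝ, 0 < ρ ∧ ∀ a, ‖a‖ ≤ 1 → ‖a - a₀‖ < ρ →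
          e (inn (x k a) - inn (x k a₀)) (inn (x k a) - inn (x k a₀)) < η) →
        (∀ k a, ‖a‖ ≤ 1 → (∀ j ≤ k, e (inn (x j a)) (inn (x j a)) ≤ (C₀ * ε * ϑ ^ j) ^ 2) →
          g (x k a) (x k a) ≤ (δ * ε * ϑ ^ k) ^ 2) →
        ∃ a, ‖a‖ ≤ 1 ∧ ∀ k, e (inn (x k a)) (inn (x k a)) ≤ (C₀ * ε * ϑ ^ k) ^ 2

/-- The density `x⁴ G''² + x² G'² + G²`. -/
def dn (G : ℝ → ℝ) (x : ℝ) : ℝ :=
  x ^ 4 * deriv (deriv G) x ^ 2 + x ^ 2 * deriv G x ^ 2 + G x ^ 2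

/-- The same density with the degenerate weight `v = 1 - x/b`. -/
def dh (b : ℝ) (Q : ℝ → ℝ) (x : ℝ) : ℝ :=
  x ^ 4 * (1 - x / b) ^ 4 * deriv (deriv Q) x ^ 2 + x ^ 2 * (1 - x / b) ^ 2 * deriv Q x ^ 2 + Q x ^ 2

/-- `Dn p b G = ∫₀ᵇ x^p (x⁴ G''² + x² G'² + G²)`. -/
def Dn (p : ℕ) (b : ℝ) (G : ℝ → ℝ) : ℝ := ∫ x in (0 : ℝ)..b, x ^ p * dn G x

/-- The same with the degenerate weight `v = 1 - x/b`. -/
def Dh (p : ℕ) (b : ℝ) (Q : ℝ → ℝ) : ℝ := ∫ x in (0 : ℝ)..b, x ^ p * dh b Q x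

/-- The energy `∫₀ᵇ x^(p+2) y² (L m)²` with the weight `y`. -/
def En (p : ℕ) (b : ℝ) (y m : ℝ → ℝ) : ℝ :=
  ∫ x in (0 : ℝ)..b, x ^ (p + 2) * y x ^ 2 * Lop 10 m x ^ 2

/-- The pairing `∫₀ᵇ x^(p+2) W · L G`. -/
def Pr (p : ℕ) (b : ℝ) (W G : ℝ → ℝ) : ℝ :=
  ∫ x in (0 : ℝ)..b, x ^ (p + 2) * W x * Lop 10 G x

/-- The cutoff: `1` for `x ≤ B`, `0` for `x ≥ 2B`. -/
def cut (B x : ℝ) : ℝ := Real.smoothTransition (2 - x / B)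

end Vale.Agent.P264Z
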